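import Vale.Agent.P215Z.Grid.Sheet
import Vale.Agent.P215Z.Frm.Log
import Vale.Agent.P215Z.Frm.Step
import Vale.Agent.P215Z.Alg.Gen

/-!
# P215: transported values and the Stokes formula on a sheet, in abstract form
-/

noncomputable section

namespace Vale.Agent.P215Z.ShA

open Classical Gen Fm
open scoped commutatorElement

variable {R : Type} [CommRing R]

theorem nilpotent_Cg {a : Ideal R} (ha : IsNilpotent a) : Group.IsNilpotent (Cg a) := by
  obtain ⟨K, hK⟩ := ha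
  refine (Subgroup.nilpotent_iff_finite_descending_central_series _).2
    ⟨K, fun n => (Cg (a ^ (n + 1))).subgroupOf (Cg a), ⟨by simp, fun x n hx g => ?_⟩, ?_⟩
  · rw [Subgroup.mem_subgroupOf, pow_succ a (n + 1)]
    exact Cg_comm hx g.2
  · dsimp only
    rw [pow_succ, hK, zero_mul, Ideal.zero_eq_bot, Cg_bot, Subgroup.bot_subgroupOf]

theorem holL_congr_chain {α G : Type} [Group G] {U U' : α → α → G} {E : α → α → Prop}
    (h : ∀ x y, E x y → U x y = U' x y) : ∀ {l : List α}, l.IsChain E → holL U l = holL U' l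
  | [], _ => rfl
  | [_], _ => rfl
  | x :: y :: l, hl => by
    rw [List.isChain_cons_cons] at hl
    rw [holL, holL, h x y hl.1, holL_congr_chain h hl.2]

theorem holN_congr_lt {α G : Type} [Group G] {U U' : α → α → G} {x : ℕ → α} :
    ∀ {n : ℕ}, (∀ k < n, U (x k) (x (k + 1)) = U' (x k) (x (k + 1))) → holN U x n = holN U' x n
  | 0, _ => rfl
  | n + 1, h => by
    rw [holN, holN, h n (Nat.lt_succ_self n), holN_congr_lt fun k hk => h k (hk.trans n.lt_succ_self)]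

theorem holL_mem {α G : Type} [Group G] {U : α → α → G} {E : α → α → Prop} {H : Subgroup G}
    (h : ∀ x y, E x y → U x y ∈ H) : ∀ {l : List α}, l.IsChain E → holL U l ∈ H
  | [], _ => H.one_mem
  | [_], _ => H.one_mem
  | x :: y :: l, hl => by
    rw [List.isChain_cons_cons] at hl
    exact H.mul_mem (h x y hl.1) (holL_mem h hl.2)

theorem holN_mem {α G : Type} [Group G] {U : α → α → G} {x : ℕ → α} {H : Subgroup G} :
    ∀ {n : ℕ}, (∀ k < n, U (x k) (x (k + 1)) ∈ H) → holN U x n ∈ H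
  | 0, _ => H.one_mem
  | n + 1, h =>
    H.mul_mem (holN_mem fun k hk => h k (hk.trans n.lt_succ_self)) (h n (Nat.lt_succ_self n))

variable {Λ : Type} {g : LabGrid Λ} (cv : g.Curves) {P : cv.S}

theorem lf_bdF (f : Gp) : lf f (f + (1, 0)) = f ∧ lf (f + (1, 0)) (f + (1, 1)) = f ∧
    lf (f + (1, 1)) (f + (0, 1)) = f ∧ lf (f + (0, 1)) f = f := by
  obtain ⟨x, y⟩ := f
  refine ⟨?_, ?_, ?_, ?_⟩ <;> simp [lf, Prod.ext_iff] <;> omega

theorem pe_bdF {f : Gp} (hf : InSq g.m f) (hP : cv.sh f = P) :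
    cv.PE P f (f + (1, 0)) ∧ cv.PE P (f + (1, 0)) (f + (1, 1)) ∧
      cv.PE P (f + (1, 1)) (f + (0, 1)) ∧ cv.PE P (f + (0, 1)) f := by
  obtain ⟨h1, h2, h3, h4⟩ := lf_bdF f
  refine ⟨⟨?_, Or.inl ?_⟩, ⟨?_, Or.inl ?_⟩, ⟨?_, Or.inl ?_⟩, ⟨?_, Or.inl ?_⟩⟩
  · exact Or.inl rfl
  · rw [h1]; exact ⟨hf, hP⟩
  · exact Or.inr (Or.inr (Or.inl (by simp [Prod.ext_iff])))
  · rw [h2]; exact ⟨hf, hP⟩
  · exact Or.inr (Or.inl (by simp [Prod.ext_iff]))
  · rw [h3]; exact ⟨hf, hP⟩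
  · exact Or.inr (Or.inr (Or.inr (by simp)))
  · rw [h4]; exact ⟨hf, hP⟩

theorem chain_bdF {f : Gp} (hf : InSq g.m f) (hP : cv.sh f = P) : (bdF f).IsChain (cv.PE P) := by
  obtain ⟨h1, h2, h3, h4⟩ := pe_bdF cv hf hP
  simp only [bdF, List.isChain_cons_cons, h1, h2, h3, h4, List.isChain_singleton, and_self]

theorem pv_self {f : Gp} (hf : InSq g.m f) (hP : cv.sh f = P) : cv.PV P f :=
  (pe_bdF cv hf hP).1.pv.1

theorem pv_vx {c : cv.C} (h : cv.Touch P c) : cv.PV P (cv.vx c 0) :=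
  (cv.pe_vx h (cv.per_pos c)).pv.1

/-- generation, for transports with values in a congruence subgroup along the edges of the sheet -/
theorem gen' {a : Ideal R} (ha : IsNilpotent a) (U : Gp → Gp → (M2 R)ˣ)
    (hU : ∀ r r', U r' r = (U r r')⁻¹) (hUa : ∀ r r', cv.PE P r r' → U r r' ∈ Cg a)
    {b : Gp} (hb : cv.PV P b) {wk : Gp → List Gp} (hwk : cv.Walks P b wk)
    (H : Subgroup (M2 R)ˣ)
    (hf : ∀ f, InSq g.m f → cv.sh f = P →
      holL U (wk f) * holL U (bdF f) * (holL U (wk f))⁻¹ ∈ H)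
    (hc : ∀ c, cv.Touch P c → cv.par P ≠ some c → holL U (wk (cv.vx c 0)) *
      holN U (cv.vx c) (cv.per c) * (holL U (wk (cv.vx c 0)))⁻¹ ∈ H)
    {r r' : Gp} (h : cv.PE P r r') : holL U (wk r) * U r r' * (holL U (wk r'))⁻¹ ∈ H := by
  have := nilpotent_Cg ha
  let U' : Gp → Gp → Cg a := fun r r' => if h : U r r' ∈ Cg a then ⟨U r r', h⟩ else 1
  have hU' : ∀ r r', U' r' r = (U' r r')⁻¹ := fun r r' => by
    by_cases h : U r r' ∈ Cg a
    · have h' : U r' r ∈ Cg a := hU r r' ▸ (Cg a).inv_mem h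
      simp only [U', dif_pos h, dif_pos h']
      exact Subtype.ext (hU r r')
    · have h' : U r' r ∉ Cg a := fun h' => h (by rwa [hU, inv_mem_iff] at h')
      simp only [U', dif_neg h, dif_neg h', inv_one]
  have e0 : ∀ r r', cv.PE P r r' → (Cg a).subtype (U' r r') = U r r' := fun r r' h => by
    simp only [U', dif_pos (hUa r r' h)]
    rfl
  have e1 : ∀ l : List Gp, l.IsChain (cv.PE P) → (Cg a).subtype (holL U' l) = holL U l :=
    fun l hl => by rw [map_holL]; exact holL_congr_chain e0 hl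
  have e2 : ∀ r, cv.PV P r → (Cg a).subtype (holL U' (wk r)) = holL U (wk r) :=
    fun r hr => e1 _ (hwk.chain r hr)
  have h1 := cv.gen U' hU' P b hb wk hwk (H.comap (Cg a).subtype) (fun f hf1 hf2 => by
      rw [Subgroup.mem_comap, map_mul, map_mul, map_inv, e2 f (pv_self cv hf1 hf2),
        e1 _ (chain_bdF cv hf1 hf2)]
      exact hf f hf1 hf2) (fun c hc1 hc2 => by
      rw [Subgroup.mem_comap, map_mul, map_mul, map_inv, e2 _ (pv_vx cv hc1), map_holN,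
        holN_congr_lt (U' := U) fun k hk => e0 _ _ (cv.pe_vx hc1 hk)]
      exact hc c hc1 hc2) h
  rwa [Subgroup.mem_comap, map_mul, map_mul, map_inv, e2 _ h.pv.1, e2 _ h.pv.2, e0 _ _ h] at h1

theorem conj_lie (w : (M2 R)ˣ) (o x : M2 R) :
    o * (w.1 * x * (w⁻¹).1) - w.1 * x * (w⁻¹).1 * o = w.1 * ⁅Ad w o, x⁆ * (w⁻¹).1 := by
  rw [Ring.lie_def, Ad, mul_sub, sub_mul]
  simp only [mul_assoc, Units.mul_inv_cancel_left, Units.mul_inv, mul_one]

theorem conj_mem_Cen {M : Ideal R} {w : (M2 R)ˣ} {o x : M2 R} (h : InC M ⁅Ad w o, x⁆) :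
    w.1 * x * (w⁻¹).1 ∈ Cen M o := by
  rw [mem_Cen, conj_lie]
  exact MI_conj h _ _

/-- the units which commute with `o` modulo `M` -/
def CenU (M : Ideal R) (o : M2 R) : Subgroup (M2 R)ˣ where
  carrier := {u | u.1 ∈ Cen M o}
  one_mem' := (Cen M o).one_mem
  mul_mem' := fun hu hv => (Cen M o).mul_mem hu hv
  inv_mem' := fun hu => inv_mem_Cen hu

theorem Ad_sub_of_cen {M : Ideal R} {o : M2 R} {u : (M2 R)ˣ} (h : u.1 ∈ Cen M o) :
    InC M (Ad u o - o) := by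
  have e : Ad u o - o = (u⁻¹).1 * (o * u.1 - u.1 * o) := by
    rw [Ad, mul_sub, mul_assoc, Units.inv_mul_cancel_left]
  rw [e]
  exact MI_mul_left _ h

/-- **Path independence** of the transported value. -/
theorem transport {a M : Ideal R} (ha : IsNilpotent a) (U : Gp → Gp → (M2 R)ˣ)
    (hU : ∀ r r', U r' r = (U r r')⁻¹) (hUa : ∀ r r', cv.PE P r r' → U r r' ∈ Cg a)
    {b : Gp} (hb : cv.PV P b) {wk : Gp → List Gp} (hwk : cv.Walks P b wk) (o : M2 R)
    (hf : ∀ f, InSq g.m f → cv.sh f = P →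
      InC M ⁅Ad (holL U (wk f)) o, (holL U (bdF f) : (M2 R)ˣ).1⁆)
    (hc : ∀ c, cv.Touch P c → cv.par P ≠ some c →
      InC M ⁅Ad (holL U (wk (cv.vx c 0))) o, (holN U (cv.vx c) (cv.per c) : (M2 R)ˣ).1⁆)
    {r r' : Gp} (h : cv.PE P r r') :
    InC M (Ad (U r r') (Ad (holL U (wk r)) o) - Ad (holL U (wk r')) o) := by
  have h1 := gen' cv ha U hU hUa hb hwk (CenU M o) (fun f h1 h2 => conj_mem_Cen (hf f h1 h2))
    (fun c h1 h2 => conj_mem_Cen (hc c h1 h2)) h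
  have h2 := (Ad_sub_of_cen h1).Ad (holL U (wk r'))
  have e : ∀ (w : (M2 R)ˣ) (x y : M2 R), Ad w (x - y) = Ad w x - Ad w y := fun w x y => by
    simp only [Ad, mul_sub, sub_mul]
  rwa [e, ← Ad_mul, inv_mul_cancel_right, Ad_mul] at h2

variable [Algebra ℚ R] {V : Type} [AddCommGroup V] [Module ℚ V]

/-- the units on which the logarithm is additive -/
def TraU (a M : Ideal R) (o : M2 R) (φ : R →ₗ[ℚ] V) : Subgroup (M2 R)ˣ where
  carrier := {u | u ∈ Cg a ∧ u.1 ∈ Tra M o φ.toAddMonoidHom}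
  one_mem' := ⟨(Cg a).one_mem, (Tra M o _).one_mem⟩
  mul_mem' := fun hu hv => ⟨(Cg a).mul_mem hu.1 hv.1, (Tra M o _).mul_mem hu.2 hv.2⟩
  inv_mem' := fun hu => ⟨(Cg a).inv_mem hu.1, inv_mem_Tra hu.2⟩

theorem lg_eq {a : Ideal R} {N : ℕ} (hN : a ^ N = ⊥) {u : (M2 R)ˣ} (hu : u ∈ Cg a) :
    lg u.1 = TrLog.lg N (u.1 - 1) :=
  lg_eq_sum _ N (by
    have h := MI_pow hu N
    rw [hN] at h
    exact MI_bot.1 h)

theorem lg_add {a M : Ideal R} (ha : IsNilpotent a) {o : M2 R} {φ : R →ₗ[ℚ] V} {u v : (M2 R)ˣ}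
    (hu : u ∈ TraU a M o φ) (hv : v ∈ TraU a M o φ) :
    φ (o * lg (u * v).1).trace = φ (o * lg u.1).trace + φ (o * lg v.1).trace := by
  obtain ⟨N, hN⟩ := ha
  rw [lg_eq hN hu.1, lg_eq hN hv.1, lg_eq hN ((Cg a).mul_mem hu.1 hv.1)]
  exact lg_mul hN hu.1 hv.1 hu.2 hv.2

theorem trace_lg_conj {a : Ideal R} (ha : IsNilpotent a) (o : M2 R) (w : (M2 R)ˣ) {u : (M2 R)ˣ}
    (hu : u ∈ Cg a) : (o * lg (w * u * w⁻¹).1).trace = (Ad w o * lg u.1).trace := by
  have e : (w * u * w⁻¹).1 = Ad w⁻¹ u.1 := by simp [Ad]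
  rw [e, lg_Ad _ _ (InC.isNilpotent ha hu), Ad, Ad, inv_inv, ← mul_assoc, Matrix.trace_mul_comm]
  simp only [mul_assoc]

omit [Algebra ℚ R] [Module ℚ V] in
theorem mem_Tra_of_MI {M ii : Ideal R} (hii : ii * ii = ⊥) {φ : R →+ V}
    (hφ : ∀ x ∈ M ^ 2, φ x = 0) {o x : M2 R} (ho : InC ii o) (hx : InC (M ⊔ ii) x) :
    x ∈ Tra M o φ := by
  have hiM : ii * (M ⊔ ii) ≤ M := by
    rw [Ideal.mul_sup, hii, sup_bot_eq]; exact Ideal.mul_le_right
  refine ⟨MI_mono hiM (sub_mem (MI_mul ho hx) (MI_mul' hx ho)), fun y hy => ?_⟩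
  obtain ⟨x1, h4, x2, h5, e2⟩ := MI_sup hx
  have h6 : o * y - y * o ∈ MI ii := sub_mem (MI_mul_right ho y) (MI_mul_left y ho)
  have e3 : ((o * x - x * o) * y).trace = -(x1 * (o * y - y * o)).trace := by
    have h7 : x2 * (o * y - y * o) = 0 := MI_bot.1 (hii ▸ MI_mul h5 h6)
    rw [← add_zero (x1 * _), ← h7, ← add_mul, ← e2, sub_mul (o * _), mul_sub x, Matrix.trace_sub,
      Matrix.trace_sub, neg_sub, mul_assoc o, Matrix.trace_mul_comm o, mul_assoc, mul_assoc]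
  rw [e3, map_neg, neg_eq_zero]
  exact hφ _ (by rw [sq]; exact MI_trace (MI_mul h4 hy))

omit [Algebra ℚ R] [Module ℚ V] in
theorem mem_Tra_of_Cg {M ii : Ideal R} (hii : ii * ii = ⊥) {φ : R →+ V}
    (hφ : ∀ x ∈ M ^ 2, φ x = 0) {o : M2 R} (ho : InC ii o) {u : (M2 R)ˣ} (hu : u ∈ Cg (M ⊔ ii)) :
    u.1 ∈ Tra M o φ := by
  have h := (Tra M o φ).add_mem (mem_Tra_of_MI hii hφ ho hu) (Tra M o φ).one_mem
  rwa [sub_add_cancel] at h

omit [Algebra ℚ R] [Module ℚ V] in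
theorem conj_mem_Tra {M : Ideal R} {φ : R →+ V} {w : (M2 R)ˣ} {o x : M2 R}
    (h : x ∈ Tra M (Ad w o) φ) : w.1 * x * (w⁻¹).1 ∈ Tra M o φ := by
  refine ⟨conj_mem_Cen h.1, fun y hy => ?_⟩
  have h5 : Ad w y ∈ Cen M (Ad w o) := by
    have e : Ad w o * Ad w y - Ad w y * Ad w o = Ad w (o * y - y * o) := by
      simp only [Ad, mul_sub, sub_mul, mul_assoc, Units.mul_inv_cancel_left]
    rw [mem_Cen, e]
    exact InC.Ad hy w
  refine Eq.trans ?_ (h.2 _ h5)
  rw [conj_lie, mul_assoc w.1, mul_assoc w.1, Matrix.trace_mul_comm w.1, Ring.lie_def]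
  simp only [Ad, mul_assoc]

omit [Algebra ℚ R] [Module ℚ V] in
theorem mem_Tra_Ad {M : Ideal R} {φ : R →+ V} {w u : (M2 R)ˣ} {o : M2 R}
    (h : (w * u * w⁻¹).1 ∈ Tra M o φ) : u.1 ∈ Tra M (Ad w o) φ := by
  have e : o = Ad w⁻¹ (Ad w o) := by rw [← Ad_mul, mul_inv_cancel]; simp [Ad]
  rw [e] at h
  have h2 := conj_mem_Tra h
  simpa [mul_assoc] using h2

theorem lg_conj {a M : Ideal R} (ha : IsNilpotent a) {o : M2 R} {φ : R →ₗ[ℚ] V} {u v : (M2 R)ˣ}
    (hu : u ∈ TraU a M o φ) (hv : v ∈ TraU a M o φ) :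
    φ (o * lg (u * v * u⁻¹).1).trace = φ (o * lg v.1).trace := by
  have h := lg_add ha hu (inv_mem hu)
  rw [mul_inv_cancel, Units.val_one, lg_one, mul_zero, Matrix.trace_zero, map_zero] at h
  rw [lg_add ha (mul_mem hu hv) (inv_mem hu), lg_add ha hu hv, add_right_comm, ← h, zero_add]

/-- **Stokes formula on a sheet.** -/
theorem stokes {a M ii : Ideal R} (ha : IsNilpotent a) (hii : ii * ii = ⊥) (φ : R →ₗ[ℚ] V)
    (hφ : ∀ x ∈ M ^ 2, φ x = 0) (hP : P ≠ cv.root) (U : Gp → Gp → (M2 R)ˣ)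
    (hU : ∀ r r', U r' r = (U r r')⁻¹) (hUa : ∀ r r', cv.PE P r r' → U r r' ∈ Cg a)
    {b : Gp} (hb : cv.PV P b) {wk : Gp → List Gp} (hwk : cv.Walks P b wk) {o : M2 R}
    (ho : InC ii o)
    (hf : ∀ f, InSq g.m f → cv.sh f = P → holL U (bdF f) ∈ Cg (M ⊔ ii))
    (hc : ∀ c, cv.Touch P c → cv.par P ≠ some c → (holN U (cv.vx c) (cv.per c) : (M2 R)ˣ).1 ∈
      Tra M (Ad (holL U (wk (cv.vx c 0))) o) φ.toAddMonoidHom) :
    ∑ f ∈ (sqs g.m).filter (fun f => cv.sh f = P),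
      φ (Ad (holL U (wk f)) o * lg (holL U (bdF f) : (M2 R)ˣ).1).trace =
    ∑ c, ((if cv.shL c = P then 1 else 0) - (if cv.shR c = P then 1 else 0) : ℤ) •
      φ (Ad (holL U (wk (cv.vx c 0))) o *
        lg (holN U (cv.vx c) (cv.per c) : (M2 R)ˣ).1).trace := by
  have hFa : ∀ f, InSq g.m f → cv.sh f = P → holL U (bdF f) ∈ Cg a := fun f h1 h2 =>
    holL_mem hUa (chain_bdF cv h1 h2)
  have hCa : ∀ c, cv.Touch P c → holN U (cv.vx c) (cv.per c) ∈ Cg a := fun c h =>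
    holN_mem fun k hk => hUa _ _ (cv.pe_vx h hk)
  have key : ∀ {r r'}, cv.PE P r r' →
      holL U (wk r) * U r r' * (holL U (wk r'))⁻¹ ∈ TraU a M o φ := fun h =>
    gen' cv ha U hU hUa hb hwk (TraU a M o φ)
      (fun f h1 h2 => ⟨Subgroup.Normal.conj_mem inferInstance _ (hFa f h1 h2) _,
        mem_Tra_of_Cg hii hφ ho (Subgroup.Normal.conj_mem inferInstance _ (hf f h1 h2) _)⟩)
      (fun c h1 h2 => ⟨Subgroup.Normal.conj_mem inferInstance _ (hCa c h1) _,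
        conj_mem_Tra (hc c h1 h2)⟩) h
  let L : (M2 R)ˣ → V := fun u => φ (o * lg u.1).trace
  have hL : ∀ {u v}, u ∈ TraU a M o φ → v ∈ TraU a M o φ → L (u * v) = L u + L v :=
    fun hu hv => lg_add ha hu hv
  have hL1 : L 1 = 0 := by simp [L, lg_one]
  let G : Gp → Gp → (M2 R)ˣ := fun r r' => holL U (wk r) * U r r' * (holL U (wk r'))⁻¹
  let α : Gp → Gp → V := fun r r' => if cv.PE P r r' then L (G r r') else 0
  have hα : ∀ r r', α r' r = -α r r' := fun r r' => by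
    by_cases h : cv.PE P r r'
    · simp only [α, if_pos h, if_pos h.symm]
      rw [eq_neg_iff_add_eq_zero, ← hL (key h.symm) (key h), ← hL1]
      congr 1
      rw [hU r r']
      group
    · have h' : ¬ cv.PE P r' r := fun h' => h h'.symm
      simp only [α, if_neg h, if_neg h', neg_zero]
  have h1 := cv.stokes α hα P hP
  refine Eq.trans (Finset.sum_congr rfl fun f hf' => ?_) (h1.trans
    (Finset.sum_congr rfl fun c _ => ?_))
  · obtain ⟨h2, h3⟩ := Finset.mem_filter.1 hf'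
    have h2' : InSq g.m f := by
      simp only [sqs, Finset.mem_product, Finset.mem_Ico] at h2
      exact ⟨h2.1.1, h2.1.2, h2.2.1, h2.2.2⟩
    obtain ⟨p1, p2, p3, p4⟩ := pe_bdF cv h2' h3
    simp only [α, if_pos p1, if_pos p2, if_pos p3, if_pos p4]
    rw [← hL (key p1) (key p2), ← hL (mul_mem (key p1) (key p2)) (key p3),
      ← hL (mul_mem (mul_mem (key p1) (key p2)) (key p3)) (key p4)]
    have e : holL U (wk f) * U f (f + (1, 0)) * (holL U (wk (f + (1, 0))))⁻¹ *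
        (holL U (wk (f + (1, 0))) * U (f + (1, 0)) (f + (1, 1)) * (holL U (wk (f + (1, 1))))⁻¹) *
        (holL U (wk (f + (1, 1))) * U (f + (1, 1)) (f + (0, 1)) * (holL U (wk (f + (0, 1))))⁻¹) *
        (holL U (wk (f + (0, 1))) * U (f + (0, 1)) f * (holL U (wk f))⁻¹) =
        holL U (wk f) * holL U (bdF f) * (holL U (wk f))⁻¹ := by
      simp only [bdF, holL]
      group
    rw [e]
    exact trace_lg_conj ha o _ (hFa f h2' h3) ▸ rfl
  · by_cases h : cv.Touch P c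
    · congr 1
      have h2 : ∀ n ≤ cv.per c, holL U (wk (cv.vx c 0)) * holN U (cv.vx c) n *
          (holL U (wk (cv.vx c n)))⁻¹ ∈ TraU a M o φ ∧
          ∑ k ∈ Finset.range n, α (cv.vx c k) (cv.vx c (k + 1)) =
          L (holL U (wk (cv.vx c 0)) * holN U (cv.vx c) n * (holL U (wk (cv.vx c n)))⁻¹) := by
        intro n
        induction n with
        | zero => intro _; simp [holN, hL1, one_mem]
        | succ n ih =>
          intro hn
          obtain ⟨h3, h4⟩ := ih (Nat.le_of_succ_le hn)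
          have p := cv.pe_vx h hn
          have e : holL U (wk (cv.vx c 0)) * holN U (cv.vx c) (n + 1) *
              (holL U (wk (cv.vx c (n + 1))))⁻¹ = holL U (wk (cv.vx c 0)) * holN U (cv.vx c) n *
              (holL U (wk (cv.vx c n)))⁻¹ * G (cv.vx c n) (cv.vx c (n + 1)) := by
            simp only [G, holN]
            group
          rw [e, Finset.sum_range_succ, h4, hL h3 (key p)]
          simp only [α, if_pos p]
          exact ⟨mul_mem h3 (key p), rfl⟩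
      rw [(h2 _ le_rfl).2, cv.closed]
      exact trace_lg_conj ha o _ (hCa c h) ▸ rfl
    · rw [if_neg fun h' => h (Or.inl h'), if_neg fun h' => h (Or.inr h'), sub_self, zero_smul,
        zero_smul]

end Vale.Agent.P215Z.ShA
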